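import Vale.Agent.P151.Slow.Final

/-!
Amenable quasi-transitive graphs whose balls grow at least like `exp (r ^ a)` for some `a > 0`: the
threshold is below one and there is no infinite cluster at it.
-/

open MeasureTheory
open scoped unitInterval

namespace Vale.Agent.Results.P151.AmenableStretchedGrowth

open Vale.Agent.P165 (QuasiTransitive Nonamenable bondMeasure openGraph pc)

/-- The vertices within graph distance `r` are the ball. -/
lemma coe_ball {W : Type} [DecidableEq W] {G : SimpleGraph W} [G.LocallyFinite]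
    (hG : G.Connected) (o : W) (r : ℕ) :
    (↑(Vale.Agent.P165.ball G o r) : Set W) = {y | G.dist o y ≤ r} := by
  ext y
  simp only [Finset.mem_coe, Set.mem_ofPred_eq]
  constructor
  · intro h
    induction r generalizing y with
    | zero =>
      simp only [Vale.Agent.P165.ball, Finset.mem_singleton] at h
      simp [h]
    | succ r ih =>
      rcases Vale.Agent.P151.Growth.mem_ball_succ.1 h with h | ⟨w, hw, hwy⟩
      · exact (ih y h).trans r.le_succ
      · calc G.dist o y ≤ G.dist o w + G.dist w y := hG.dist_triangle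
          _ ≤ r + 1 := Nat.add_le_add (ih w hw) (le_of_eq (SimpleGraph.dist_eq_one_iff_adj.2 hwy))
  · intro h
    obtain ⟨q, hq⟩ := hG.exists_walk_length_eq_dist y o
    exact Vale.Agent.P165.mem_ball_of_walk q (by rw [hq, SimpleGraph.dist_comm]; exact h)

theorem result :
    ∀ (W : Type) (G : SimpleGraph W) [G.LocallyFinite],
      G.Connected → QuasiTransitive G → ¬ Nonamenable G →
      (∃ (o : W) (a c : ℝ), 0 < a ∧ 0 < c ∧
        ∀ᶠ r : ℕ in Filter.atTop,
          Real.exp (c * (r : ℝ) ^ a) ≤ (({y | G.dist o y ≤ r} : Set W).ncard : ℝ)) →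
      pc G < 1 ∧ ∀ p : I, (p : ℝ) = pc G →
        bondMeasure G p
            {ω | ∃ C : (openGraph G ω).ConnectedComponent, C.supp.Infinite} = 0 ∧
          ∀ x : W, bondMeasure G p {ω | {y | (openGraph G ω).Reachable x y}.Infinite} = 0 := by
  intro W G _ hG hQT hA ⟨o, a, c, ha, hc, hgrow⟩
  classical
  haveI := Vale.Agent.P165.countable_of_connected hG
  have hb : ∀ᶠ r : ℕ in Filter.atTop,
      Real.exp (c * (r : ℝ) ^ a) ≤ ((Vale.Agent.P165.ball G o r).card : ℝ) := by
    filter_upwards [hgrow] with r hr
    rwa [← coe_ball hG o r, Set.ncard_coe_finset] at hr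
  obtain ⟨hlt, hx⟩ := Vale.Agent.P151.Slow.no_percolation_at_pc hG hQT hA ha hc hb
  refine ⟨hlt, fun p hp => ⟨measure_mono_null ?_ (measure_iUnion_null (hx p hp)), hx p hp⟩⟩
  rintro ω ⟨C, hC⟩
  induction C using SimpleGraph.ConnectedComponent.ind with
  | h z =>
    refine Set.mem_iUnion.2 ⟨z, ?_⟩
    refine hC.mono fun y hy => ?_
    simpa [SimpleGraph.ConnectedComponent.mem_supp_iff, SimpleGraph.ConnectedComponent.eq,
      SimpleGraph.reachable_comm] using hy

end Vale.Agent.Results.P151.AmenableStretchedGrowth
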