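import Vale.Agent.P151.Height.Final
import Vale.Agent.P151.Height.ActionMap
import Vale.Agent.P151.Height.CayleyMap
import Vale.Agent.P151.Height.Nilpotent
import Vale.Agent.P151.Height.Zd
import Vale.Agent.P151.Reduction.Final

/-!
No percolation at criticality on graphs with a height map to `ℤ²`, on graphs with a cofinite action
of a group virtually mapping onto `ℤ²` with stabilisers killed, on graphs with a cofinite action
having a virtually nilpotent quotient with finite stabiliser images and finite kernel orbits, on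
Cayley graphs of such groups, and on `ℤ^d`, `d ≥ 2`.
-/

open MeasureTheory
open scoped unitInterval

namespace Vale.Agent.Results.P151.CriticalHeightMap

open Vale.Agent.P151 (zd infExists)
open Vale.Agent.P151.Height (cayGraph HeightMap)
open Vale.Agent.P165 (bondMeasure openGraph pc)

/-- The critical-point statement for one graph carrying a height map. -/
lemma null_of_height {W : Type} {G : SimpleGraph W} (hG : G.Connected)
    (hfin : ∀ x, (G.neighborSet x).Finite) (π : W → ℤ × ℤ)
    (hsh : ∀ v : ℤ × ℤ, ∃ φ : G ≃g G, ∀ x, π (φ x) = π x + v)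
    (hco : ∃ F : Finset W, ∀ x, ∃ φ : G ≃g G, (∃ v, ∀ y, π (φ y) = π y + v) ∧ φ x ∈ F)
    (hpc : pc G < 1) (p : I) (hp : (p : ℝ) = pc G) :
    bondMeasure G p {ω | ∃ C : (openGraph G ω).ConnectedComponent, C.supp.Infinite} = 0 ∧
      ∀ x : W, bondMeasure G p {ω | {y | (openGraph G ω).Reachable x y}.Infinite} = 0 := by
  classical
  haveI : G.LocallyFinite := fun x => (hfin x).fintype
  haveI := Vale.Agent.P165.countable_of_connected hG
  obtain ⟨o⟩ := hG.nonempty
  obtain ⟨F, hF⟩ := hco
  let M : HeightMap G :=
    { π := fun x => π x - π o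
      o := o
      π_o := sub_self _
      exists_shift := fun v => by
        obtain ⟨φ, hφ⟩ := hsh v
        exact ⟨φ, fun x => by simp only [hφ x]; abel⟩
      cofinite := ⟨F, fun x => by
        obtain ⟨φ, ⟨v, hv⟩, hx⟩ := hF x
        exact ⟨φ, ⟨v, fun y => by simp only [hv y]; abel⟩, hx⟩⟩ }
  have h := Vale.Agent.P151.Height.infExists_pc_null hG M hpc p hp
  refine ⟨h, fun x => measure_mono_null (fun ω hω => ?_) h⟩
  rw [Vale.Agent.P151.infExists_eq]
  exact Set.mem_iUnion.2 ⟨x, hω⟩

/-- The critical-point statement for a graph without an infinite cluster below one. -/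
lemma null_of_line {W : Type} {G : SimpleGraph W} (p : I)
    (h : bondMeasure G p (Vale.Agent.P151.infExists G) = 0) :
    bondMeasure G p {ω | ∃ C : (openGraph G ω).ConnectedComponent, C.supp.Infinite} = 0 ∧
      ∀ x : W, bondMeasure G p {ω | {y | (openGraph G ω).Reachable x y}.Infinite} = 0 := by
  refine ⟨h, fun x => measure_mono_null (fun ω hω => ?_) h⟩
  rw [Vale.Agent.P151.infExists_eq]
  exact Set.mem_iUnion.2 ⟨x, hω⟩

theorem result :
    (∀ (W : Type) (G : SimpleGraph W), G.Connected → (∀ x, (G.neighborSet x).Finite) →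
      ∀ π : W → ℤ × ℤ,
        (∀ v : ℤ × ℤ, ∃ φ : G ≃g G, ∀ x, π (φ x) = π x + v) →
        (∃ F : Finset W, ∀ x, ∃ φ : G ≃g G, (∃ v, ∀ y, π (φ y) = π y + v) ∧ φ x ∈ F) →
        pc G < 1 → ∀ p : I, (p : ℝ) = pc G →
          bondMeasure G p
              {ω | ∃ C : (openGraph G ω).ConnectedComponent, C.supp.Infinite} = 0 ∧
            ∀ x : W, bondMeasure G p {ω | {y | (openGraph G ω).Reachable x y}.Infinite} = 0) ∧
    (∀ (W : Type) (G : SimpleGraph W), G.Connected → (∀ x, (G.neighborSet x).Finite) →
      ∀ (Γ : Type) [Group Γ] [MulAction Γ W],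
        (∀ (g : Γ) (x y : W), G.Adj x y → G.Adj (g • x) (g • y)) →
        (∃ F : Finset W, ∀ x : W, ∃ g : Γ, g • x ∈ F) →
        ∀ K : Subgroup Γ, K.FiniteIndex →
          ∀ f : K →* Multiplicative (ℤ × ℤ), Function.Surjective f →
            (∀ (k : K) (x : W), (k : Γ) • x = x → f k = 1) →
            pc G < 1 → ∀ p : I, (p : ℝ) = pc G →
              bondMeasure G p
                  {ω | ∃ C : (openGraph G ω).ConnectedComponent, C.supp.Infinite} = 0 ∧
                ∀ x : W,
                  bondMeasure G p {ω | {y | (openGraph G ω).Reachable x y}.Infinite} = 0) ∧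
    (∀ (W : Type) (G : SimpleGraph W), G.Connected → (∀ x, (G.neighborSet x).Finite) →
      ∀ (Γ : Type) [Group Γ] [MulAction Γ W],
        (∀ (g : Γ) (x y : W), G.Adj x y → G.Adj (g • x) (g • y)) →
        (∃ F : Finset W, ∀ x : W, ∃ g : Γ, g • x ∈ F) →
        ∀ (Q : Type) [Group Q], Group.FG Q →
          ∀ q : Γ →* Q, Function.Surjective q →
            (∀ x : W, (q '' {g | g • x = x}).Finite) →
            (∀ x : W, {y | ∃ g : Γ, q g = 1 ∧ g • x = y}.Finite) →
            ∀ N : Subgroup Q, N.FiniteIndex → Group.IsNilpotent N →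
              pc G < 1 → ∀ p : I, (p : ℝ) = pc G →
                bondMeasure G p
                    {ω | ∃ C : (openGraph G ω).ConnectedComponent, C.supp.Infinite} = 0 ∧
                  ∀ x : W,
                    bondMeasure G p {ω | {y | (openGraph G ω).Reachable x y}.Infinite} = 0) ∧
    (∀ (X : Type) [Group X] (S : Finset X), Subgroup.closure (S : Set X) = ⊤ →
      ∀ K : Subgroup X, K.FiniteIndex →
        ∀ f : K →* Multiplicative (ℤ × ℤ), Function.Surjective f →
          pc (cayGraph S) < 1 → ∀ p : I, (p : ℝ) = pc (cayGraph S) →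
            bondMeasure (cayGraph S) p
                {ω | ∃ C : (openGraph (cayGraph S) ω).ConnectedComponent, C.supp.Infinite} = 0 ∧
              ∀ x : X, bondMeasure (cayGraph S) p
                {ω | {y | (openGraph (cayGraph S) ω).Reachable x y}.Infinite} = 0) ∧
    (∀ (X : Type) [Group X] (S : Finset X), Subgroup.closure (S : Set X) = ⊤ →
      ∀ N : Subgroup X, N.FiniteIndex → Group.IsNilpotent N →
          pc (cayGraph S) < 1 → ∀ p : I, (p : ℝ) = pc (cayGraph S) →
            bondMeasure (cayGraph S) p
                {ω | ∃ C : (openGraph (cayGraph S) ω).ConnectedComponent, C.supp.Infinite} = 0 ∧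
              ∀ x : X, bondMeasure (cayGraph S) p
                {ω | {y | (openGraph (cayGraph S) ω).Reachable x y}.Infinite} = 0) ∧
    (∀ d : ℕ, 2 ≤ d →
      pc (zd d) < 1 ∧
      ∀ p : I, (p : ℝ) = pc (zd d) →
        bondMeasure (zd d) p
            {ω | ∃ C : (openGraph (zd d) ω).ConnectedComponent, C.supp.Infinite} = 0 ∧
          ∀ x : Fin d → ℤ,
            bondMeasure (zd d) p {ω | {y | (openGraph (zd d) ω).Reachable x y}.Infinite} = 0) := by
  refine ⟨fun W G hG hfin π hsh hco hpc p hp => null_of_height hG hfin π hsh hco hpc p hp,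
    fun W G hG hfin Γ _ _ haut hco K hK f hf hst hpc p hp => ?_,
    fun W G hG hfin Γ _ _ haut hco Q _ hQ q hq hst hker N hN hN' hpc p hp => ?_,
    fun X _ S hS K hK f hf hpc p hp => ?_, fun X _ S hS N hN hN' hpc p hp => ?_,
    fun d hd => ?_⟩
  · classical
    haveI := hK
    obtain ⟨π, hsh, hco'⟩ := Vale.Agent.P151.Height.action_height G haut hco K f hf hst
    exact null_of_height hG hfin π hsh hco' hpc p hp
  · classical
    haveI := hQ
    haveI := hN
    haveI := hN'
    haveI : G.LocallyFinite := fun x => (hfin x).fintype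
    haveI := Vale.Agent.P165.countable_of_connected hG
    rcases Vale.Agent.P151.Height.nilpotent_action_alternative G haut hco q hq hst hker N with
      ⟨π, hsh, hco'⟩ | hno
    · exact null_of_height hG hfin π hsh hco' hpc p hp
    · exact null_of_line p (hno p (hp.trans_lt hpc))
  · obtain ⟨π, hsh, hco⟩ := Vale.Agent.P151.Height.cayGraph_height S K hK f hf
    exact null_of_height (Vale.Agent.P151.Height.cayGraph_connected S hS)
      (Vale.Agent.P151.Height.cayGraph_finite S) π hsh hco hpc p hp
  · classical
    haveI : (cayGraph S).LocallyFinite := fun x =>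
      (Vale.Agent.P151.Height.cayGraph_finite S x).fintype
    haveI := hN
    haveI := hN'
    rcases Vale.Agent.P151.Height.nilpotent_alternative S hS N with ⟨K, f, hK, hf⟩ | hno
    · obtain ⟨π, hsh, hco⟩ := Vale.Agent.P151.Height.cayGraph_height S K hK f hf
      exact null_of_height (Vale.Agent.P151.Height.cayGraph_connected S hS)
        (Vale.Agent.P151.Height.cayGraph_finite S) π hsh hco hpc p hp
    · exact null_of_line p (hno p (hp.trans_lt hpc))
  · refine ⟨Vale.Agent.P151.Red.pc_lt_one hd, fun p hp => ?_⟩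
    exact null_of_height (Vale.Agent.P151.zd_connected d)
      (fun x => Set.toFinite ((zd d).neighborSet x)) (Vale.Agent.P151.Height.zdPi hd)
      (Vale.Agent.P151.Height.zdPi_shifts hd) (Vale.Agent.P151.Height.zdPi_cofinite hd)
      (Vale.Agent.P151.Red.pc_lt_one hd) p hp

end Vale.Agent.Results.P151.CriticalHeightMap
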